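import Mathlib

open Finset Relation

namespace Vale.Agent.P065

noncomputable section
open Classical

abbrev Pt := ℝ × ℝ

/-- Twice the signed area of the triangle `p q r`. -/
def orient (p q r : Pt) : ℝ :=
  (q.1 - p.1) * (r.2 - p.2) - (q.2 - p.2) * (r.1 - p.1)

def sl (p q : Pt) : ℝ := (q.2 - p.2) / (q.1 - p.1)

def cnt (P : Finset Pt) (q : Pt) (s : ℝ) : ℕ :=
  ((P.erase q).filter fun r => r.2 - q.2 < s * (r.1 - q.1)).card

def edges (P : Finset Pt) (j : ℕ) : Finset (Pt × Pt) :=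
  (P ×ˢ P).filter fun e => e.1.1 < e.2.1 ∧ (P.filter fun r => orient e.1 e.2 r < 0).card = j

lemma sl_symm (p q : Pt) : sl p q = sl q p := by
  unfold sl; rw [← neg_sub p.2 q.2, ← neg_sub p.1 q.1, neg_div_neg_eq]

lemma sl_mul {p q : Pt} (h : p.1 ≠ q.1) : sl p q * (q.1 - p.1) = q.2 - p.2 := by
  unfold sl; exact div_mul_cancel₀ _ (sub_ne_zero.2 (Ne.symm h))

/-- The point set is in general position. -/
def Gen (P : Finset Pt) : Prop :=
  (∀ p ∈ P, ∀ q ∈ P, p ≠ q → p.1 ≠ q.1) ∧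
    ∀ p ∈ P, ∀ q ∈ P, ∀ r ∈ P, p ≠ q → q ≠ r → p ≠ r → orient p q r ≠ 0

lemma sl_inj {P : Finset Pt} (hg : Gen P) {q r r' : Pt} (hq : q ∈ P) (hr : r ∈ P.erase q)
    (hr' : r' ∈ P.erase q) (h : sl q r = sl q r') : r = r' := by
  obtain ⟨hne, hrP⟩ := mem_erase.1 hr
  obtain ⟨hne', hrP'⟩ := mem_erase.1 hr'
  by_contra hd
  apply hg.2 q hq r hrP r' hrP' (Ne.symm hne) hd (Ne.symm hne')
  have e1 := sl_mul (hg.1 q hq r hrP (Ne.symm hne))
  have e2 := sl_mul (hg.1 q hq r' hrP' (Ne.symm hne'))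
  unfold orient
  rw [← e1, ← e2, h]; ring

lemma cnt_base {P : Finset Pt} {p q : Pt} (hpq : p.1 < q.1)
    (u : Pt) (hu : u = p ∨ u = q) :
    (P.filter fun r => orient p q r < 0).card = cnt P u (sl p q) := by
  have e := sl_mul (ne_of_lt hpq)
  have key : ∀ r : Pt, orient p q r =
      (q.1 - p.1) * ((r.2 - u.2) - sl p q * (r.1 - u.1)) := by
    intro r
    unfold orient
    rcases hu with rfl | rfl <;> rw [← e] <;> [ring; skip]
    have : u.2 = p.2 + sl p u * (u.1 - p.1) := by rw [e]; ring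
    rw [this]; ring
  unfold cnt
  congr 1
  ext r
  simp only [mem_filter, mem_erase, key]
  constructor
  · rintro ⟨hr, h⟩
    have h' : (r.2 - u.2) - sl p q * (r.1 - u.1) < 0 := by nlinarith [sub_pos.2 hpq]
    refine ⟨⟨?_, hr⟩, by linarith⟩
    rintro rfl; simp at h'
  · rintro ⟨⟨_, hr⟩, h⟩
    exact ⟨hr, mul_neg_of_pos_of_neg (sub_pos.2 hpq) (by linarith)⟩

lemma below_iff {q r : Pt} (h : q.1 ≠ r.1) (s : ℝ) :
    r.2 - q.2 < s * (r.1 - q.1) ↔
      (q.1 < r.1 ∧ sl q r < s) ∨ (r.1 < q.1 ∧ s < sl q r) := by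
  rw [← sl_mul h]
  rcases lt_or_gt_of_ne h with h' | h'
  · simp only [h', true_and, not_lt.2 h'.le, false_and, or_false]
    exact mul_lt_mul_iff_left₀ (sub_pos.2 h')
  · simp only [h', true_and, not_lt.2 (le_of_lt h'), false_and, false_or]
    exact mul_lt_mul_right_of_neg (sub_neg.2 h')

/-- Value of the count just before slope `s`. -/
def bef (P : Finset Pt) (q : Pt) (s : ℝ) : ℕ :=
  ((P.erase q).filter fun r => (q.1 < r.1 ∧ sl q r < s) ∨ (r.1 < q.1 ∧ s ≤ sl q r)).card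

/-- Value of the count just after slope `s`. -/
def aft (P : Finset Pt) (q : Pt) (s : ℝ) : ℕ :=
  ((P.erase q).filter fun r => (q.1 < r.1 ∧ sl q r ≤ s) ∨ (r.1 < q.1 ∧ s < sl q r)).card

def leftN (P : Finset Pt) (q : Pt) : ℕ := (P.filter fun r => r.1 < q.1).card

variable {P : Finset Pt} {q r r0 : Pt}

lemma cnt_eq_filter (hg : Gen P) (hq : q ∈ P) (s : ℝ) :
    cnt P q s = ((P.erase q).filter fun x =>
      (q.1 < x.1 ∧ sl q x < s) ∨ (x.1 < q.1 ∧ s < sl q x)).card := by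
  unfold cnt
  congr 1
  refine filter_congr fun x hx => ?_
  obtain ⟨hne, hxP⟩ := mem_erase.1 hx
  exact below_iff (hg.1 q hq x hxP (Ne.symm hne)) s

lemma bef_eq (hg : Gen P) (hq : q ∈ P) (hr : r ∈ P.erase q) :
    bef P q (sl q r) = cnt P q (sl q r) + (if r.1 < q.1 then 1 else 0) := by
  rw [cnt_eq_filter hg hq]
  unfold bef
  split_ifs with hl
  · rw [← card_insert_of_notMem (a := r) (by simp)]
    congr 1
    ext x
    simp only [mem_filter, mem_insert]
    constructor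
    · rintro ⟨hx, h | ⟨h, h'⟩⟩
      · exact Or.inr ⟨hx, Or.inl h⟩
      · rcases h'.lt_or_eq with h'' | h''
        · exact Or.inr ⟨hx, Or.inr ⟨h, h''⟩⟩
        · exact Or.inl (sl_inj hg hq hx hr h''.symm)
    · rintro (rfl | ⟨hx, h | ⟨h, h'⟩⟩)
      · exact ⟨hr, Or.inr ⟨hl, le_rfl⟩⟩
      · exact ⟨hx, Or.inl h⟩
      · exact ⟨hx, Or.inr ⟨h, h'.le⟩⟩
  · rw [add_zero]
    congr 1
    refine filter_congr fun x hx => ?_
    constructor
    · rintro (h | ⟨h, h'⟩)
      · exact Or.inl h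
      · rcases h'.lt_or_eq with h'' | h''
        · exact Or.inr ⟨h, h''⟩
        · exact absurd ((sl_inj hg hq hx hr h''.symm) ▸ h) hl
    · rintro (h | ⟨h, h'⟩)
      · exact Or.inl h
      · exact Or.inr ⟨h, h'.le⟩

lemma cnt_le_aft (hg : Gen P) (hq : q ∈ P) (s : ℝ) : cnt P q s ≤ aft P q s := by
  rw [cnt_eq_filter hg hq]
  refine card_le_card fun x hx => ?_
  simp only [mem_filter] at hx ⊢
  exact ⟨hx.1, hx.2.imp (fun h => ⟨h.1, h.2.le⟩) id⟩

lemma lt_aft_right (hg : Gen P) (hq : q ∈ P) (hr : r ∈ P.erase q) (h : q.1 < r.1) :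
    cnt P q (sl q r) < aft P q (sl q r) := by
  rw [cnt_eq_filter hg hq]
  refine card_lt_card ((ssubset_iff_of_subset ?_).2 ⟨r, ?_, ?_⟩)
  · intro x hx
    simp only [mem_filter] at hx ⊢
    exact ⟨hx.1, hx.2.imp (fun h => ⟨h.1, h.2.le⟩) id⟩
  · simp [hr, h]
  · simp

lemma bef_eq_aft {s0 s : ℝ} (hlt : s0 < s)
    (hgap : ∀ x ∈ P.erase q, ¬ (s0 < sl q x ∧ sl q x < s)) :
    bef P q s = aft P q s0 := by
  unfold bef aft
  congr 1
  refine filter_congr fun x hx => ?_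
  have := hgap x hx
  constructor
  · rintro (⟨h, h'⟩ | ⟨h, h'⟩)
    · exact Or.inl ⟨h, not_lt.1 fun hh => this ⟨hh, h'⟩⟩
    · exact Or.inr ⟨h, hlt.trans_le h'⟩
  · rintro (⟨h, h'⟩ | ⟨h, h'⟩)
    · exact Or.inl ⟨h, h'.trans_lt hlt⟩
    · exact Or.inr ⟨h, not_lt.1 fun hh => this ⟨h', hh⟩⟩

lemma bef_min {s : ℝ} (h : ∀ x ∈ P.erase q, s ≤ sl q x) : bef P q s = leftN P q := by
  unfold bef leftN
  congr 1
  ext x
  simp only [mem_filter, mem_erase]
  constructor
  · rintro ⟨hx, ⟨_, h'⟩ | ⟨h', _⟩⟩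
    · exact absurd (h x (mem_erase.2 hx)) (not_le.2 h')
    · exact ⟨hx.2, h'⟩
  · rintro ⟨hx, h'⟩
    have hne : x ≠ q := fun e => by simp [e] at h'
    exact ⟨⟨hne, hx⟩, Or.inr ⟨h', h x (mem_erase.2 ⟨hne, hx⟩)⟩⟩

/-- Between an up-crossing bound and a right `j`-edge there is a left `j`-edge. -/
lemma cross (hg : Gen P) (hq : q ∈ P) {j : ℕ} {r2 : Pt} (h2 : r2 ∈ P.erase q)
    (hright : q.1 < r2.1) (hN : cnt P q (sl q r2) = j) (lo : ℝ → Prop) (hlo2 : lo (sl q r2))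
    (hup : ∀ a b, lo a → a ≤ b → lo b)
    (hmin : ∀ x ∈ P.erase q, lo (sl q x) →
      (∀ y ∈ P.erase q, lo (sl q y) → sl q x ≤ sl q y) → j < bef P q (sl q x)) :
    ∃ x ∈ P.erase q, x.1 < q.1 ∧ lo (sl q x) ∧ sl q x < sl q r2 ∧ cnt P q (sl q x) = j := by
  obtain ⟨x, hxU, hxmin⟩ := ((P.erase q).filter fun x =>
    lo (sl q x) ∧ sl q x ≤ sl q r2 ∧ cnt P q (sl q x) ≤ j).exists_min_image (fun x => sl q x)
      ⟨r2, mem_filter.2 ⟨h2, hlo2, le_rfl, hN.le⟩⟩
  obtain ⟨hx, hlox, hxle, hxN⟩ := mem_filter.1 hxU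
  have hb : j < bef P q (sl q x) := by
    by_cases hex : ∃ y ∈ P.erase q, lo (sl q y) ∧ sl q y < sl q x
    · obtain ⟨y0, hy0, hlo0, hlt0⟩ := hex
      obtain ⟨y, hyS, hymax⟩ := ((P.erase q).filter fun y =>
        lo (sl q y) ∧ sl q y < sl q x).exists_max_image (fun y => sl q y)
          ⟨y0, mem_filter.2 ⟨hy0, hlo0, hlt0⟩⟩
      obtain ⟨hy, hloy, hylt⟩ := mem_filter.1 hyS
      rw [bef_eq_aft hylt (fun z hz hzz => by
        have := hymax z (mem_filter.2 ⟨hz, hup _ _ hloy hzz.1.le, hzz.2⟩)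
        linarith [hzz.1])]
      refine lt_of_lt_of_le ?_ (cnt_le_aft hg hq _)
      by_contra hle
      exact absurd (hxmin y (mem_filter.2 ⟨hy, hloy, hylt.le.trans hxle, not_lt.1 hle⟩))
        (not_le.2 hylt)
    · push Not at hex
      exact hmin x hx hlox fun y hy hl => hex y hy hl
  rw [bef_eq hg hq hx] at hb
  split_ifs at hb with hl
  · refine ⟨x, hx, hl, hlox, lt_of_le_of_ne hxle fun e => ?_, by omega⟩
    rw [sl_inj hg hq hx h2 e] at hl
    linarith
  · omega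

section chains

variable {j : ℕ}

lemma mem_edges {e : Pt × Pt} :
    e ∈ edges P j ↔ e.1 ∈ P ∧ e.2 ∈ P ∧ e.1.1 < e.2.1 ∧
      (P.filter fun r => orient e.1 e.2 r < 0).card = j := by
  simp [edges, and_assoc]

lemma edge_cnt_left (hg : Gen P) {e : Pt × Pt} (he : e ∈ edges P j) :
    e.2 ∈ P.erase e.1 ∧ cnt P e.1 (sl e.1 e.2) = j := by
  obtain ⟨h1, h2, hlt, hc⟩ := mem_edges.1 he
  refine ⟨mem_erase.2 ⟨fun h => by simp [h] at hlt, h2⟩, ?_⟩
  rw [← cnt_base hlt e.1 (Or.inl rfl), hc]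

lemma edge_of_left (hg : Gen P) {x : Pt} (hq : q ∈ P) (hx : x ∈ P.erase q) (hl : x.1 < q.1)
    (hc : cnt P q (sl q x) = j) : (x, q) ∈ edges P j := by
  refine mem_edges.2 ⟨(mem_erase.1 hx).2, hq, hl, ?_⟩
  rw [cnt_base hl q (Or.inr rfl), sl_symm, hc]

lemma between (hg : Gen P) {e f : Pt × Pt} (he : e ∈ edges P j) (hf : f ∈ edges P j)
    (h : e.1 = f.1) (hlt : sl e.1 e.2 < sl f.1 f.2) :
    ∃ d ∈ edges P j, d.2 = f.1 ∧ sl e.1 e.2 < sl d.1 d.2 ∧ sl d.1 d.2 < sl f.1 f.2 := by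
  obtain ⟨h1, _, hf12, _⟩ := mem_edges.1 hf
  obtain ⟨hfm, hfc⟩ := edge_cnt_left hg hf
  obtain ⟨hem, hec⟩ := edge_cnt_left hg he
  rw [h] at hem hec hlt ⊢
  have her : f.1.1 < e.2.1 := h ▸ (mem_edges.1 he).2.2.1
  obtain ⟨x, hx, hl, hlo, hxlt, hxc⟩ := cross hg h1 hfm hf12 hfc (fun s => sl f.1 e.2 < s) hlt
    (fun a b ha hab => lt_of_lt_of_le ha hab) (fun x hx hlo hm => by
      rw [bef_eq_aft hlo (fun z hz hzz => absurd (hm z hz hzz.1) (not_le.2 hzz.2))]
      exact hec ▸ lt_aft_right hg h1 hem her)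
  refine ⟨(x, f.1), edge_of_left hg h1 hx hl hxc, rfl, ?_, ?_⟩ <;> rw [sl_symm x]
  · exact hlo
  · exact hxlt

/-- `Pred P j d e`: `d` precedes `e` in its convex chain. -/
def Pred (P : Finset Pt) (j : ℕ) (d e : Pt × Pt) : Prop :=
  d ∈ edges P j ∧ e ∈ edges P j ∧ d.2 = e.1 ∧ sl d.1 d.2 < sl e.1 e.2 ∧
    ∀ c ∈ edges P j, c.2 = e.1 → sl c.1 c.2 < sl e.1 e.2 → sl c.1 c.2 ≤ sl d.1 d.2

lemma pred_unique (hg : Gen P) {d e f : Pt × Pt} (h1 : Pred P j d e) (h2 : Pred P j d f) :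
    e = f := by
  have hef : e.1 = f.1 := h1.2.2.1.symm.trans h2.2.2.1
  rcases lt_trichotomy (sl e.1 e.2) (sl f.1 f.2) with h | h | h
  · obtain ⟨c, hc, hc2, hlo, hhi⟩ := between hg h1.2.1 h2.2.1 hef h
    linarith [h2.2.2.2.2 c hc hc2 hhi, h1.2.2.2.1]
  · refine Prod.ext hef ?_
    obtain ⟨hfm, _⟩ := edge_cnt_left hg h2.2.1
    obtain ⟨hem, _⟩ := edge_cnt_left hg h1.2.1
    rw [hef] at h hem
    exact sl_inj hg (mem_edges.1 h2.2.1).1 hem hfm h
  · obtain ⟨c, hc, hc2, hlo, hhi⟩ := between hg h2.2.1 h1.2.1 hef.symm h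
    linarith [h1.2.2.2.2 c hc hc2 hhi, h2.2.2.2.1]

def starts (P : Finset Pt) (j : ℕ) : Finset (Pt × Pt) :=
  (edges P j).filter fun e => ∀ c ∈ edges P j, c.2 = e.1 → sl e.1 e.2 ≤ sl c.1 c.2

lemma pred_or_start {e : Pt × Pt} (he : e ∈ edges P j) :
    e ∈ starts P j ∨ ∃ d, Pred P j d e := by
  by_cases h : ((edges P j).filter fun c => c.2 = e.1 ∧ sl c.1 c.2 < sl e.1 e.2).Nonempty
  · right
    obtain ⟨d, hd, hmax⟩ := exists_max_image _ (fun c : Pt × Pt => sl c.1 c.2) h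
    obtain ⟨hd, hd2, hdlt⟩ := mem_filter.1 hd
    exact ⟨d, hd, he, hd2, hdlt, fun c hc hc2 hlt => hmax c (mem_filter.2 ⟨hc, hc2, hlt⟩)⟩
  · left
    refine mem_filter.2 ⟨he, fun c hc hc2 => ?_⟩
    by_contra hlt
    exact h ⟨c, mem_filter.2 ⟨hc, hc2, not_le.1 hlt⟩⟩

lemma card_starts (hg : Gen P) : (starts P j).card ≤ j + 1 := by
  have hleft : ∀ e ∈ starts P j, leftN P e.1 ≤ j := by
    intro e he
    obtain ⟨heE, hs⟩ := mem_filter.1 he
    obtain ⟨h1, _, h12, _⟩ := mem_edges.1 heE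
    obtain ⟨hem, hec⟩ := edge_cnt_left hg heE
    by_contra hlt
    obtain ⟨x, hx, hl, -, hxlt, hxc⟩ := cross hg h1 hem h12 hec (fun _ => True) trivial
      (fun _ _ _ _ => trivial) (fun x hx _ hm => by
        rw [bef_min fun y hy => hm y hy trivial]; omega)
    have := hs (x, e.1) (edge_of_left hg h1 hx hl hxc) rfl
    rw [sl_symm x] at this
    linarith
  calc (starts P j).card ≤ (range (j + 1)).card :=
        card_le_card_of_injOn (fun e => leftN P e.1)
          (fun e he => mem_coe.2 (mem_range.2 (Nat.lt_succ_of_le (hleft e he)))) ?_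
    _ = j + 1 := card_range _
  intro e he f hf h
  obtain ⟨heE, hse⟩ := mem_filter.1 (mem_coe.1 he)
  obtain ⟨hfE, hsf⟩ := mem_filter.1 (mem_coe.1 hf)
  have h1 := (mem_edges.1 heE).1
  have h1' := (mem_edges.1 hfE).1
  have hef : e.1 = f.1 := by
    by_contra hne
    simp only at h
    rcases lt_or_gt_of_ne (hg.1 _ h1 _ h1' hne) with hlt | hlt
    · refine (Nat.ne_of_lt (card_lt_card ((ssubset_iff_of_subset ?_).2 ⟨e.1, ?_, ?_⟩))) h
      · intro x hx; simp only [mem_filter] at hx ⊢; exact ⟨hx.1, hx.2.trans hlt⟩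
      · exact mem_filter.2 ⟨h1, hlt⟩
      · simp
    · refine (Nat.ne_of_lt (card_lt_card ((ssubset_iff_of_subset ?_).2 ⟨f.1, ?_, ?_⟩))) h.symm
      · intro x hx; simp only [mem_filter] at hx ⊢; exact ⟨hx.1, hx.2.trans hlt⟩
      · exact mem_filter.2 ⟨h1', hlt⟩
      · simp
  rcases lt_trichotomy (sl e.1 e.2) (sl f.1 f.2) with hs | hs | hs
  · obtain ⟨c, hc, hc2, -, hhi⟩ := between hg heE hfE hef hs
    linarith [hsf c hc hc2]
  · refine Prod.ext hef ?_
    obtain ⟨hem, -⟩ := edge_cnt_left hg heE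
    rw [hef] at hs hem
    exact sl_inj hg h1' hem (edge_cnt_left hg hfE).1 hs
  · obtain ⟨c, hc, hc2, -, hhi⟩ := between hg hfE heE hef.symm hs
    linarith [hse c hc hc2]

lemma exists_root (e : Pt × Pt) (he : e ∈ edges P j) :
    ∃ r ∈ starts P j, ReflTransGen (Pred P j) r e := by
  induction hn : leftN P e.1 using Nat.strong_induction_on generalizing e with
  | _ n ih =>
    rcases pred_or_start he with h | ⟨d, hd⟩
    · exact ⟨e, h, .refl⟩
    · obtain ⟨hd1, -, hd12, -⟩ := mem_edges.1 hd.1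
      rw [hd.2.2.1] at hd12
      have hlt : leftN P d.1 < n := by
        rw [← hn]
        refine card_lt_card ((ssubset_iff_of_subset ?_).2 ⟨d.1, ?_, ?_⟩)
        · intro x hx; simp only [mem_filter] at hx ⊢; exact ⟨hx.1, hx.2.trans hd12⟩
        · exact mem_filter.2 ⟨hd1, hd12⟩
        · simp
      obtain ⟨r, hr, hrd⟩ := ih _ hlt d hd.1 rfl
      exact ⟨r, hr, hrd.tail hd⟩

lemma trans_slope {d e : Pt × Pt} (h : TransGen (Pred P j) d e) :
    d.2.1 < e.2.1 ∧ sl d.1 d.2 < sl d.2 e.2 ∧ sl d.2 e.2 ≤ sl e.1 e.2 := by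
  induction h with
  | single h =>
    obtain ⟨-, he, h2, hlt, -⟩ := h
    rw [h2] at hlt ⊢
    exact ⟨(mem_edges.1 he).2.2.1, hlt, le_rfl⟩
  | @tail f g _ hp ih =>
    obtain ⟨-, hg', h2, hlt, -⟩ := hp
    obtain ⟨hx, hlo, hhi⟩ := ih
    rw [h2] at hx hlo hhi hlt
    have hx2 := (mem_edges.1 hg').2.2.1
    have e1 := sl_mul (ne_of_lt hx)
    have e2 := sl_mul (ne_of_lt hx2)
    have e3 := sl_mul (ne_of_lt (hx.trans hx2))
    refine ⟨hx.trans hx2, ?_, ?_⟩
    · by_contra hle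
      nlinarith [sub_pos.2 hx, sub_pos.2 hx2]
    · by_contra hle
      nlinarith [sub_pos.2 hx, sub_pos.2 hx2]

/-- The `j`-edges whose right ends lie in a set without long cups are few. -/
theorem cupBound (hg : Gen P) (B : Finset Pt) (b : ℕ)
    (hB : ∀ S : Finset Pt, S ⊆ B →
      (∀ x ∈ S, ∀ y ∈ S, ∀ z ∈ S, x.1 < y.1 → y.1 < z.1 → 0 < orient x y z) → S.card ≤ b) :
    ((edges P j).filter fun e => e.2 ∈ B).card ≤ (j + 1) * b := by
  let fib := fun r => (edges P j).filter fun e => e.2 ∈ B ∧ ReflTransGen (Pred P j) r e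
  have hsub : (edges P j).filter (fun e => e.2 ∈ B) ⊆ (starts P j).biUnion fib := by
    intro e he
    obtain ⟨he, heB⟩ := mem_filter.1 he
    obtain ⟨r, hr, hre⟩ := exists_root e he
    exact mem_biUnion.2 ⟨r, hr, mem_filter.2 ⟨he, heB, hre⟩⟩
  refine (card_le_card hsub).trans ((card_biUnion_le_card_mul _ _ b fun r _ => ?_).trans
    (Nat.mul_le_mul_right b (card_starts hg)))
  have htot : ∀ d ∈ fib r, ∀ e ∈ fib r,
      d = e ∨ TransGen (Pred P j) d e ∨ TransGen (Pred P j) e d := by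
    intro d hd e he
    have hu : Relator.RightUnique (Pred P j) := fun _ _ _ h1 h2 => pred_unique hg h1 h2
    rcases ReflTransGen.total_of_right_unique hu
      (mem_filter.1 hd).2.2 (mem_filter.1 he).2.2 with h | h
    · rcases reflTransGen_iff_eq_or_transGen.1 h with h | h
      · exact Or.inl h.symm
      · exact Or.inr (Or.inl h)
    · rcases reflTransGen_iff_eq_or_transGen.1 h with h | h
      · exact Or.inl h
      · exact Or.inr (Or.inr h)
  rw [← card_image_of_injOn (f := Prod.snd) (s := fib r) ?_]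
  · refine hB _ ?_ ?_
    · intro x hx
      obtain ⟨d, hd, rfl⟩ := mem_image.1 hx
      exact (mem_filter.1 hd).2.1
    · intro x hx y hy z hz hxy hyz
      obtain ⟨d, hd, rfl⟩ := mem_image.1 hx
      obtain ⟨e, he, rfl⟩ := mem_image.1 hy
      obtain ⟨f, hf, rfl⟩ := mem_image.1 hz
      have hde : TransGen (Pred P j) d e := by
        rcases htot d hd e he with rfl | h | h
        · exact absurd hxy (lt_irrefl _)
        · exact h
        · linarith [(trans_slope h).1]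
      have hef : TransGen (Pred P j) e f := by
        rcases htot e he f hf with rfl | h | h
        · exact absurd hyz (lt_irrefl _)
        · exact h
        · linarith [(trans_slope h).1]
      have hs : sl d.2 e.2 < sl e.2 f.2 :=
        (trans_slope hde).2.2.trans_lt (trans_slope hef).2.1
      have e1 := sl_mul (ne_of_lt hxy)
      have e2 := sl_mul (ne_of_lt hyz)
      have : orient d.2 e.2 f.2 =
          (e.2.1 - d.2.1) * (f.2.1 - e.2.1) * (sl e.2 f.2 - sl d.2 e.2) := by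
        unfold orient; linear_combination (f.2.1 - e.2.1) * e1 - (e.2.1 - d.2.1) * e2
      rw [this]
      exact mul_pos (mul_pos (sub_pos.2 hxy) (sub_pos.2 hyz)) (sub_pos.2 hs)
  · intro d hd e he h
    rcases htot d hd e he with rfl | h' | h'
    · rfl
    · exact absurd (trans_slope h').1 (by rw [h]; exact lt_irrefl _)
    · exact absurd (trans_slope h').1 (by rw [h]; exact lt_irrefl _)

end chains

/-- Reflection in the horizontal axis. -/
def refl (p : Pt) : Pt := (p.1, -p.2)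

lemma refl_refl (p : Pt) : refl (refl p) = p := by simp [refl]

lemma refl_inj : Function.Injective refl := fun a b h => by
  rw [← refl_refl a, h, refl_refl]

lemma orient_refl (p q r : Pt) : orient (refl p) (refl q) (refl r) = - orient p q r := by
  simp [orient, refl]; ring

theorem edge_bound (P A : Finset Pt) (hg : Gen P) (a b j : ℕ)
    (hA : ∀ S : Finset Pt, S ⊆ A →
      (∀ x ∈ S, ∀ y ∈ S, ∀ z ∈ S, x.1 < y.1 → y.1 < z.1 → orient x y z < 0) → S.card ≤ a)
    (hB : ∀ S : Finset Pt, S ⊆ P \ A →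
      (∀ x ∈ S, ∀ y ∈ S, ∀ z ∈ S, x.1 < y.1 → y.1 < z.1 → 0 < orient x y z) → S.card ≤ b) :
    (edges P j).card ≤ (j + 1) * b + (P.card - 1 - j) * a := by
  rw [← card_filter_add_card_filter_not (s := edges P j) (fun e => e.2 ∈ P \ A)]
  refine Nat.add_le_add (cupBound hg _ b hB) ?_
  rcases (edges P j).eq_empty_or_nonempty with h0 | ⟨e0, he0⟩
  · simp [h0]
  set P' := P.image refl
  have hg' : Gen P' := by
    constructor
    · intro p hp q hq hne
      obtain ⟨p0, hp0, rfl⟩ := mem_image.1 hp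
      obtain ⟨q0, hq0, rfl⟩ := mem_image.1 hq
      exact hg.1 p0 hp0 q0 hq0 (fun h => hne (h ▸ rfl))
    · intro p hp q hq r hr h1 h2 h3
      obtain ⟨p0, hp0, rfl⟩ := mem_image.1 hp
      obtain ⟨q0, hq0, rfl⟩ := mem_image.1 hq
      obtain ⟨r0, hr0, rfl⟩ := mem_image.1 hr
      rw [orient_refl, neg_ne_zero]
      exact hg.2 p0 hp0 q0 hq0 r0 hr0 (fun h => h1 (h ▸ rfl)) (fun h => h2 (h ▸ rfl))
        (fun h => h3 (h ▸ rfl))
  have hcount : ∀ e ∈ edges P j,
      ((P'.filter fun r => orient (refl e.1) (refl e.2) r < 0).card = P.card - 2 - j) ∧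
        j + 2 ≤ P.card := by
    intro e he
    obtain ⟨h1, h2, h12, hc⟩ := mem_edges.1 he
    have hne : e.1 ≠ e.2 := fun h => by simp [h] at h12
    have himg : (P'.filter fun r => orient (refl e.1) (refl e.2) r < 0) =
        (P.filter fun r => 0 < orient e.1 e.2 r).image refl := by
      rw [filter_image]
      congr 1
      exact filter_congr fun r _ => by rw [orient_refl, neg_lt_zero]
    rw [himg, card_image_of_injective _ refl_inj]
    have hzero : P.filter (fun r => ¬ orient e.1 e.2 r < 0 ∧ ¬ 0 < orient e.1 e.2 r) =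
        {e.1, e.2} := by
      ext r
      simp only [mem_filter, mem_insert, mem_singleton]
      constructor
      · rintro ⟨hr, hn, hp⟩
        by_contra hh
        push Not at hh
        exact hg.2 _ h1 _ h2 r hr hne (Ne.symm hh.2) (Ne.symm hh.1) (le_antisymm
          (not_lt.1 hp) (not_lt.1 hn))
      · rintro (rfl | rfl)
        · exact ⟨h1, by simp [orient], by simp [orient]⟩
        · exact ⟨h2, by simp [orient, mul_comm], by simp [orient, mul_comm]⟩
    have s1 := card_filter_add_card_filter_not (s := P) (fun r => orient e.1 e.2 r < 0)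
    have s2 := card_filter_add_card_filter_not
      (s := P.filter fun r => ¬ orient e.1 e.2 r < 0) (fun r => 0 < orient e.1 e.2 r)
    rw [filter_filter, filter_filter, hzero, card_pair hne] at s2
    have s3 : (P.filter fun r => ¬ orient e.1 e.2 r < 0 ∧ 0 < orient e.1 e.2 r) =
        P.filter fun r => 0 < orient e.1 e.2 r :=
      filter_congr fun r _ => ⟨fun h => h.2, fun h => ⟨h.le.not_gt, h⟩⟩
    rw [s3] at s2
    omega
  have hj := (hcount e0 he0).2
  have hbound := cupBound (P := P') (j := P.card - 2 - j) hg' (A.image refl) a (fun S hS hcup => by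
    rw [← card_image_of_injective S refl_inj]
    refine hA _ ?_ ?_
    · intro x hx
      obtain ⟨y, hy, rfl⟩ := mem_image.1 hx
      obtain ⟨z, hz, rfl⟩ := mem_image.1 (hS hy)
      rwa [refl_refl]
    · intro x hx y hy z hz hxy hyz
      obtain ⟨x, hx', rfl⟩ := mem_image.1 hx
      obtain ⟨y, hy', rfl⟩ := mem_image.1 hy
      obtain ⟨z, hz', rfl⟩ := mem_image.1 hz
      rw [orient_refl, neg_lt_zero]
      exact hcup x hx' y hy' z hz' hxy hyz)
  have e1 : P.card - 2 - j + 1 = P.card - 1 - j := by omega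
  rw [e1] at hbound
  refine le_trans (card_le_card_of_injOn (fun e => (refl e.1, refl e.2)) ?_ ?_) hbound
  · intro e he
    simp only [coe_filter, Set.mem_setOf_eq] at he ⊢
    obtain ⟨he, hnA⟩ := he
    obtain ⟨h1, h2, h12, -⟩ := mem_edges.1 he
    refine ⟨mem_edges.2 ⟨mem_image_of_mem _ h1, mem_image_of_mem _ h2, h12, (hcount e he).1⟩, ?_⟩
    refine mem_image_of_mem _ ?_
    by_contra hh
    exact hnA (mem_sdiff.2 ⟨h2, hh⟩)
  · intro e _ f _ h
    simp only [Prod.mk.injEq] at h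
    exact Prod.ext (refl_inj h.1) (refl_inj h.2)

end

end Vale.Agent.P065
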